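import Vale.Agent.P287D.Gm.Tr
import Vale.Agent.P287D.Cb.Mov

/-!
# P287D, block PN: derivations which move the constants
-/

set_option linter.unusedVariables false
set_option linter.unusedSectionVars false

open Set

noncomputable section

namespace Vale.Agent.P287D.Pn

open Cb

variable {K K' : Type} [Field K] [Algebra ℂ K] [Field K'] [Algebra ℂ K'] {n : ℕ} {φ : K →+* K'}
  {P : Pl K'} {d : K' → K'}

/-- a derivation over the small field which preserves the constants -/
structure Mv (φ : K →+* K') (d : K' → K') : Prop where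
  de : De d
  pc : Pc d
  ki : ∀ f, d (φ f) = 0

theorem exists_mv (hK : FF K n) (hK' : FF K' n) (hc : Cst φ) (ha : Alc φ) {c₀ : ℂ}
    (h0 : algebraMap ℂ K' c₀ ∉ range φ) : ∃ d, Mv φ d ∧ d (algebraMap ℂ K' c₀) = 1 := by
  classical
  have : CharZero K' := charZero_of_injective_algebraMap (algebraMap ℂ K').injective
  obtain ⟨σ, hσ⟩ := hc.exists_cst
  let k := σ.fieldRange
  have t0 : Transcendental k c₀ := fun a => by
    have : IsAlgClosed k := IsAlgClosed.of_ringEquiv ℂ k
      (RingEquiv.ofBijective _ σ.rangeRestrictField_bijective)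
    obtain ⟨⟨_, c, rfl⟩, e⟩ : c₀ ∈ (algebraMap k ℂ).range :=
      minpoly.mem_range_of_degree_eq_one k c₀
        (IsAlgClosed.degree_eq_one_of_irreducible k (minpoly.irreducible a.isIntegral))
    exact h0 ⟨_, (hσ c).symm.trans (congrArg _ e)⟩
  obtain ⟨s, hs, hx⟩ := exists_isTranscendenceBasis_superset (R := k) (s := {c₀})
    ((algebraicIndependent_singleton_iff (⟨c₀, rfl⟩ : ({c₀} : Set ℂ))).2 t0)
  obtain ⟨y, hy, -⟩ := id hK
  obtain ⟨D, hD⟩ := fr_of hK hy
  have hz : AlgebraicIndependent ℂ fun i => φ (y i) :=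
    ind_map (m := 0) (y := Fin.elim0) (D := D) hc (fun j => j.elim0)
      (by rwa [show Fin.append y Fin.elim0 = y from Fin.append_elim0 _]) hK' ha
  have hT := hx.sumElim_comp (hK'.basis hz)
  obtain ⟨d, hd⟩ := P297.H927.exists_derivation_of_basis hT
    (Sum.elim (fun _ => 0) fun _ => (1 : K'))
  refine ⟨d, ⟨de_of d, fun c => ?_, fun f => ?_⟩, hd (.inr ⟨c₀, hs rfl⟩)⟩
  · obtain ⟨e, he⟩ := P297.H927.exists_derivation_of_basis hx fun _ => (1 : ℂ)
    have a : Dr (algebraMap ℂ K') fun c => algebraMap ℂ K' (e c) :=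
      ⟨fun a b => by rw [map_add, map_add], fun a b => by simp⟩
    refine ⟨e c, (sub_eq_zero.1 ((((de_of d).comp (algebraMap ℂ K')).sub a).kill' (k := k)
      (fun c => ?_) (s := range ((↑) : s → ℂ)) ?_ (hx.isAlgebraic.isAlgebraic c))).symm⟩
    · rw [← IsScalarTower.algebraMap_apply, Derivation.map_algebraMap, Derivation.map_algebraMap,
        map_zero, sub_zero]
    · rintro _ ⟨b, rfl⟩
      rw [he, show d (algebraMap ℂ K' b) = 1 from hd (.inr b), map_one, sub_self]
  · refine (expand ((de_of d).comp φ) (fun c => ?_) hD f).trans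
      (Finset.sum_eq_zero fun j _ => mul_eq_zero_of_left (hd (.inl j)) _)
    exact hσ c ▸ d.map_algebraMap (⟨σ c, c, rfl⟩ : k)

theorem Mv.lin (h : Mv φ d) (c : K →₀ ℂ) : ∃ e : K →₀ ℂ,
    d (Finsupp.linearCombination ℂ φ c) = Finsupp.linearCombination ℂ φ e ∧
      ∀ f, algebraMap ℂ K' (e f) = d (algebraMap ℂ K' (c f)) := by
  choose e he using h.pc
  have e0 : e 0 = 0 := (algebraMap ℂ K').injective (by rw [he, map_zero, h.de.zero])
  refine ⟨c.mapRange e e0, ?_, fun f => he _⟩
  rw [Finsupp.linearCombination_apply, Finsupp.linearCombination_apply,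
    Finsupp.sum_mapRange_index (h := fun i (a : ℂ) => a • φ i) fun _ => zero_smul _ _, Finsupp.sum, Finsupp.sum]
  induction c.support using Finset.cons_induction with
  | empty => simpa using h.de.zero
  | cons a s ha ih =>
    rw [Finset.sum_cons, Finset.sum_cons, h.de.add, ih, Algebra.smul_def, Algebra.smul_def,
      h.de.mul, h.ki, he]
    simp [mul_comm]

theorem frac (hg : Subfield.closure (range φ ∪ range (algebraMap ℂ K')) = ⊤)
    (V : ValuationSubring K') (x : K') : ∃ a ∈ Algebra.adjoin ℂ (range φ ∩ V),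
      ∃ b ∈ Algebra.adjoin ℂ (range φ ∩ V), x = a / b :=
  (IntermediateField.mem_adjoin_iff_div ..).1 (Gm.adj_top hg (V.comap φ)
    (fun f hf => IntermediateField.subset_adjoin ℂ (range φ ∩ V) ⟨⟨f, rfl⟩, hf⟩) x)

theorem adj_mem {S : Set K'} (hS : S ⊆ P.ring) {b : K'} (hb : b ∈ Algebra.adjoin ℂ S) :
    b ∈ P.ring := by
  induction hb using Algebra.adjoin_induction with
  | mem a ha => exact hS ha
  | algebraMap a => exact P.con a
  | add a b _ _ ha hb => exact add_mem ha hb
  | mul a b _ _ ha hb => exact mul_mem ha hb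

theorem Mv.adj (h : Mv φ d) {S : Set K'} (hS : S ⊆ range φ) {b : K'}
    (hb : b ∈ Algebra.adjoin ℂ S) : d b ∈ Algebra.adjoin ℂ S := by
  induction hb using Algebra.adjoin_induction with
  | mem a ha =>
    obtain ⟨f, rfl⟩ := hS ha
    rw [h.ki]
    exact zero_mem _
  | algebraMap a =>
    obtain ⟨c, e⟩ := h.pc a
    exact e ▸ Subalgebra.algebraMap_mem _ c
  | add a b _ _ ha hb => exact h.de.add a b ▸ add_mem ha hb
  | mul a b x y ha hb => exact h.de.mul a b ▸ add_mem (mul_mem x hb) (mul_mem y ha)

/-- **DER**: a place which is trivial on the small field moves -/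
theorem der (hK : FF K n) (hK' : FF K' n) (hc : Cst φ)
    (hg : Subfield.closure (range φ ∪ range (algebraMap ℂ K')) = ⊤) (t : Trv φ P) :
    ∃ d, Mv φ d ∧ ∃ a ∈ Algebra.adjoin ℂ (range φ), Mx P a ∧ ¬ Mx P (d a) := by
  classical
  by_contra hn
  push Not at hn
  have mem : ∀ c : K →₀ ℂ, Finsupp.linearCombination ℂ φ c ∈ Algebra.adjoin ℂ (range φ) :=
    fun c => Subalgebra.sum_mem _ fun f _ =>
      Subalgebra.smul_mem _ (Algebra.subset_adjoin (mem_range_self f)) _
  have key : ∀ (m : ℕ) (c : K →₀ ℂ), c.support.card < m →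
      Mx P (Finsupp.linearCombination ℂ φ c) → Finsupp.linearCombination ℂ φ c = 0 := by
    intro m
    induction m with
    | zero => exact fun _ h => absurd h (Nat.not_lt_zero _)
    | succ m ih =>
      have one : ∀ (c : K →₀ ℂ) (g : K), c g = 1 → c.support.card < m + 1 →
          Mx P (Finsupp.linearCombination ℂ φ c) → Finsupp.linearCombination ℂ φ c = 0 := by
        intro c g cg hm hx
        have lt : ∀ (e : K →₀ ℂ) (f : K), c f ≠ 0 → e f = 0 → (∀ f, c f = 0 → e f = 0) →
            e.support.card < m := fun e f a b k => lt_of_lt_of_le (Finset.card_lt_card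
          ⟨fun x hx => by
            rw [Finsupp.mem_support_iff] at hx ⊢
            exact fun z => hx (k x z),
          fun z => Finsupp.mem_support_iff.1 (z (Finsupp.mem_support_iff.2 a)) b⟩) (by omega)
        by_cases a : ∀ f, algebraMap ℂ K' (c f) ∈ range φ
        · obtain ⟨u, hu⟩ : Finsupp.linearCombination ℂ φ c ∈ φ.range :=
            Subring.sum_mem _ fun f _ => by
              change c f • φ f ∈ _
              rw [Algebra.smul_def]
              exact mul_mem (a f) ⟨f, rfl⟩
          rw [← hu, mx_iff, t.ord] at hx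
          exact hu ▸ hx.resolve_right (lt_irrefl _)
        · push Not at a
          obtain ⟨f, hf⟩ := a
          obtain ⟨d, hd, d1⟩ := exists_mv hK hK' hc (alc_of_gen hg) hf
          obtain ⟨e, e1, e2⟩ := hd.lin c
          have i := (algebraMap ℂ K').injective
          have z : ∀ f, c f = 0 → e f = 0 := fun f k =>
            i (by rw [e2, k, map_zero, hd.de.zero])
          have e3 := ih e (lt e g (cg ▸ one_ne_zero) (i (by rw [e2, cg, map_one, hd.de.one, map_zero])) z)
            (e1 ▸ hn d hd _ (mem c) hx)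
          have e4 : Finsupp.linearCombination ℂ φ (c - c f • e) =
              Finsupp.linearCombination ℂ φ c := by rw [map_sub, map_smul, e3, smul_zero, sub_zero]
          rw [← e4] at hx ⊢
          refine ih _ (lt _ f (fun k => hf ⟨0, by simp [k]⟩) ?_ fun g k => by simp [k, z g k]) hx
          simp [show e f = 1 from i (by rw [e2, d1, map_one])]
      intro c hm hx
      by_cases c0 : c = 0
      · simp [c0]
      obtain ⟨g, hg⟩ := Finsupp.support_nonempty_iff.2 c0
      rw [Finsupp.mem_support_iff] at hg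
      have := one ((c g)⁻¹ • c) g (by simp [hg]) ((Finset.card_le_card
        Finsupp.support_smul).trans_lt hm) (by
          rw [map_smul, Algebra.smul_def]
          exact hx.mul (P.con _))
      rw [map_smul] at this
      exact (smul_eq_zero.1 this).resolve_left (inv_ne_zero hg)
  obtain ⟨a, ha, b, hb, e⟩ := frac hg ⊤ P.t
  rw [show range φ ∩ (⊤ : ValuationSubring K') = range φ from inter_univ _] at ha hb
  have b0 : b ≠ 0 := fun k => P.t_ne (by simp [e, k])
  have ea : a = P.t * b := by rw [e, div_mul_cancel₀ _ b0]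
  have : a ∈ Submodule.span ℂ (range φ) := by
    have := Algebra.adjoin_eq_span (R := ℂ) (s := range φ) ▸ (show a ∈ Subalgebra.toSubmodule _ from ha)
    rwa [show range φ = ((MonoidHom.mrange φ : Submonoid K') : Set K') from rfl,
      Submonoid.closure_eq] at this
  obtain ⟨c, rfl⟩ := (Finsupp.range_linearCombination (R := ℂ) (v := φ)).ge this
  exact mul_ne_zero P.t_ne b0 (ea.symm.trans (key _ c (Nat.lt_succ_self _)
    (ea ▸ mx_t (adj_mem (by rintro _ ⟨f, rfl⟩; exact t f) hb))))

/-- **REG**: regularity at the places which are spanned by the small field -/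
theorem reg (hK' : FF K' n) (hg : Subfield.closure (range φ ∪ range (algebraMap ℂ K')) = ⊤)
    (h : Mv φ d) (s : Gm.Spn φ P) : Rg P d := by
  have : CharZero K' := charZero_of_injective_algebraMap (algebraMap ℂ K').injective
  have hS : Sp P (range φ ∩ P.ring) := Gm.sp_iff.2 ⟨inter_subset_right, s⟩
  obtain ⟨c, r⟩ : ∃ c : ℕ, Rg P fun x => P.t ^ c * d x := by
    obtain ⟨E, l⟩ := lift_lg hK' P h.de h.pc
    obtain ⟨u, D, a⟩ := exists_ad hK' P
    obtain ⟨c, hc⟩ := exists_pow P fun j => E (u j)
    refine ⟨c, fun x hx => ?_⟩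
    have := add_mem (mul_mem (pow_mem (t_mem P) c) (l.rg (h.de.sub (dr_of E)) x hx))
      (sum_mem (t := Finset.univ) fun j _ => mul_mem (hc j) (a.pre j x hx))
    convert this using 1
    simp only [mul_assoc, ← Finset.mul_sum]
    rw [← mul_add, expand (dr_of E) E.map_algebraMap a.fr x]
    simp
  induction c with
  | zero => simpa using r
  | succ c ih =>
    have e : ∀ z ∈ P.ring, Mx P (P.t ^ (c + 1) * z) := fun z hz => by
      rw [pow_succ', mul_assoc]
      exact mx_t (mul_mem (pow_mem (t_mem P) _) hz)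
    have de := h.de.smul (P.t ^ (c + 1))
    by_cases k : Mx P (P.t ^ (c + 1) * d P.t)
    · have l := r.lg de (y := P.t) (by rw [P.ord_t]; omega) k
      refine ih fun x hx => ?_
      have := l.small de hS (fun s hs => e _ (by
        obtain ⟨⟨f, rfl⟩, -⟩ := hs
        rw [h.ki]
        exact zero_mem _)) (fun c => e _ (Gm.rd_cst (h.pc c)).1) hx
      rwa [Mx, pow_succ', mul_assoc, mul_div_cancel_left₀ _ P.t_ne] at this
    have dv : ∀ (m : ℕ) (b : K'), b ∈ Algebra.adjoin ℂ (range φ ∩ P.ring) → b ≠ 0 →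
        P.ord b < m → ((c : ℤ) + 2) ∣ P.ord b := by
      intro m
      induction m with
      | zero =>
        exact fun b hb _ o => absurd (P297Z.Pl.ord_nonneg_of_mem _ (adj_mem inter_subset_right hb))
          (not_le.2 o)
      | succ m ih =>
        intro b hb b0 o
        by_cases z : P.ord b = 0
        · simp [z]
        obtain ⟨u, k1, k2, k3⟩ := ld_eq de P b0
        have q : ¬ Mx P (P.t * (P.t ^ (c + 1) * d b / b)) := fun q => k (by
          rw [k3, mul_add, mul_left_comm P.t (P.ord b : K'), mul_div_cancel₀ _ P.t_ne] at q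
          have := ((q.sub (mx_t (mul_mem k2 (r u k1))))).mul (int_inv_mem P (P.ord b))
          rwa [add_sub_cancel_left, inv_mul_cancel_left₀ (Int.cast_ne_zero.2 z)] at this)
        have q' : P.t * (P.t ^ (c + 1) * d b / b) ∈ P.ring := by
          rw [k3, mul_add, mul_left_comm P.t (P.ord b : K'), mul_div_cancel₀ _ P.t_ne]
          exact add_mem (mul_mem (t_mem P) (mul_mem k2 (r u k1)))
            (mul_mem (int_mem P _) (r _ (t_mem P)))
        rw [mx_iff, not_or] at q
        have d0 : d b ≠ 0 := fun z => q.1 (by simp [z])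
        have o1 := P297Z.Pl.ord_nonneg_of_mem _ q'
        have o2 : P.ord (P.t * (P.t ^ (c + 1) * d b / b)) = c + 2 + P.ord (d b) - P.ord b := by
          rw [show P.t * (P.t ^ (c + 1) * d b / b) = d b * b⁻¹ * P.t ^ ((c : ℤ) + 2) by
            rw [zpow_add₀ P.t_ne, zpow_natCast, zpow_ofNat]; field_simp; ring,
            P.ord_mul_t (mul_ne_zero d0 (inv_ne_zero b0)), P297Z.Pl.ord_mul _ d0 (inv_ne_zero b0),
            P297Z.Pl.ord_inv]
          ring
        have := ih _ (h.adj inter_subset_left hb) d0 (by omega)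
        rw [show P.ord b = c + 2 + P.ord (d b) by omega]
        exact dvd_add dvd_rfl this
    obtain ⟨a, ha, b, hb, e⟩ := frac hg P.ring P.t
    have b0 : b ≠ 0 := fun k => P.t_ne (by simp [e, k])
    have a0 : a ≠ 0 := fun k => P.t_ne (by simp [e, k])
    have o := P.ord_t
    rw [e, div_eq_mul_inv, P297Z.Pl.ord_mul _ a0 (inv_ne_zero b0), P297Z.Pl.ord_inv] at o
    have := Int.le_of_dvd one_pos (o ▸ dvd_add (dv ((P.ord a).toNat + 1) a ha a0 (by omega))
      (dv ((P.ord b).toNat + 1) b hb b0 (by omega)).neg_right)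
    omega

theorem reg_on (hR : RES) (hB : Gm.BA) (hK' : FF K' (n + 1)) {L : IntermediateField ℂ K}
    (e : Ext L φ) (h : Mv φ d) {Λ : BD K} (s : Smp Λ) (o : On n (pb φ Λ) P) : Rg P d :=
  reg hK' e.gen h (Gm.spn_of_on hR hB hK' (e.ok hK') s o)

end Vale.Agent.P287D.Pn
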