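import Vale.Agent.P287D.Pn.Der
import Vale.Agent.P287D.Pe.Ret
import Vale.Agent.P287D.Tg.Dich
import Vale.Agent.P287D.Ku.Uk
import Vale.Agent.P287D.Api.Int

/-!
# P287D, block PN: a moving prime divisor moves in a pencil
-/

set_option linter.unusedVariables false
set_option linter.unusedSectionVars false

open Set

noncomputable section

namespace Vale.Agent.P287D.Pn

open Cb

variable {K : Type} [Field K] [Algebra ℂ K] {n : ℕ} {ψ : K →+* K} {P : Pl K} {d : K → K}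
  {Λ N A G Z β : BD K}

theorem cover (h : Smp A) :
    ∃ T : Set (BD K), T.Finite ∧ (∀ G ∈ T, Rep A G) ∧ ∀ R, ∃ G ∈ T, G R = 0 := by
  refine h.ind (p := fun A => ∃ T : Set (BD K), T.Finite ∧ (∀ G ∈ T, Rep A G) ∧
    ∀ R, ∃ G ∈ T, G R = 0) (fun s hs => ?_) ?_ ?_
  · refine ⟨(fun f => dv f + mx s) '' {f | f ∈ s ∧ f ≠ 0},
      (s.finite_toSet.subset fun _ k => k.1).image _, ?_, fun R => ?_⟩
    · rintro _ ⟨f, k, rfl⟩
      exact (sec_of_mem k.1).rep k.2
    · obtain ⟨f, a, b, c⟩ := R.exists_mz hs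
      exact ⟨_, ⟨f, ⟨a, b⟩, rfl⟩, by simp [dv_apply, mx_apply, c]⟩
  · rintro a b - - ⟨T, t1, t2, t3⟩ ⟨U, u1, u2, u3⟩
    refine ⟨image2 (· + ·) T U, t1.image2 _ u1, ?_, fun R => ?_⟩
    · rintro _ ⟨x, hx, y, hy, rfl⟩
      exact (t2 x hx).add (u2 y hy)
    · obtain ⟨x, hx, e⟩ := t3 R
      obtain ⟨y, hy, e'⟩ := u3 R
      exact ⟨_, ⟨x, hx, y, hy, rfl⟩, by simp [e, e']⟩
  · rintro c a hc - ⟨T, t1, t2, t3⟩
    refine ⟨(c • ·) '' T, t1.image _, ?_, fun R => ?_⟩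
    · rintro _ ⟨x, hx, rfl⟩
      exact (t2 x hx).smul hc
    · obtain ⟨x, hx, e⟩ := t3 R
      exact ⟨_, ⟨x, hx, rfl⟩, by simp [e]⟩

theorem dlog (h : De d) (hZ : Z ∈ Prn K) : ∃ u : K, ∀ Q : Pl K, Rg Q d →
    u - algebraMap ℂ K (Z Q) * (d Q.t / Q.t) ∈ Q.ring := by
  refine Prn.ind (p := fun Z => ∃ u : K, ∀ Q : Pl K, Rg Q d →
    u - algebraMap ℂ K (Z Q) * (d Q.t / Q.t) ∈ Q.ring) hZ (fun f f0 => ⟨d f / f, fun Q r => ?_⟩)
    ?_ ?_
  · obtain ⟨u, a, b, c⟩ := ld_eq h Q f0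
    rw [c, dv_apply, Complex.ofReal_intCast, map_intCast, add_sub_cancel_right]
    exact mul_mem b (r u a)
  · rintro a b - - ⟨u, hu⟩ ⟨v, hv⟩
    refine ⟨u + v, fun Q r => ?_⟩
    rw [Pi.add_apply, Complex.ofReal_add, map_add, add_mul, add_sub_add_comm]
    exact add_mem (hu Q r) (hv Q r)
  · rintro c a - ⟨u, hu⟩
    refine ⟨algebraMap ℂ K c * u, fun Q r => ?_⟩
    rw [Pi.smul_apply, smul_eq_mul, Complex.ofReal_mul, map_mul, mul_assoc, ← mul_sub]
    exact mul_mem (Q.con _) (hu Q r)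

theorem loc_hart (hK : FF K (n + 1)) (s : Smp Λ) (b : Big Λ) (g : Dsc Λ G) (g0 : 0 ≤ G) {f : K}
    (h : ∀ Q, On n Λ Q → G Q = 0 → f ∈ Q.ring) {R : Pl K} (r : G R = 0) : f ∈ R.ring := by
  have fin := Pr.fin_on res' hK s b ((Api.mod.isb n K hK).1 _ (dv_mem_Car f))
  have nn : ∀ Q ∈ fin.toFinset, 0 ≤ |dv f Q| / G Q := fun Q _ => div_nonneg (abs_nonneg _) (g0 Q)
  have := Pr.hart res' hK s b ((Dsc.dv s f).add (g.smul (∑ Q ∈ fin.toFinset, |dv f Q| / G Q)))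
    (fun Q o => by
      rw [Pi.add_apply, Pi.smul_apply, smul_eq_mul]
      rcases (g0 Q).eq_or_lt with z | z
      · rw [← z, Pi.zero_apply, mul_zero, add_zero, dv_apply]
        exact_mod_cast P297Z.Pl.ord_nonneg_of_mem _ (h Q o z.symm)
      by_cases e : dv f Q = 0
      · rw [e, zero_add]
        exact mul_nonneg (Finset.sum_nonneg nn) z.le
      · have := (div_le_iff₀ z).1 (Finset.single_le_sum nn (fin.mem_toFinset.2 ⟨o, e⟩))
        linarith [neg_abs_le (dv f Q)]) R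
  rw [Pi.add_apply, Pi.smul_apply, r, smul_zero, add_zero, dv_apply, Pi.zero_apply] at this
  exact mem_ord (Int.cast_nonneg_iff.1 this)

theorem core (hK : FF K (n + 1)) (hc : Cst ψ)
    (hg : Subfield.closure (range ψ ∪ range (algebraMap ℂ K)) = ⊤) (s : Smp Λ) (e : pb ψ Λ = Λ)
    (t : Trv ψ P) (hβ : Hull n Λ P.δ β) (sN : Smp N) (bN : Big N) (dN : Dsc Λ N)
    (kl : Klt (n + 1) (-N)) (bd : Bdy n N (-N)) (on : On n N P) :
    ∃ f : K, P.ord f = -1 ∧ ∀ R, R ≠ P → On n N R → 0 ≤ R.ord f := by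
  have ok := hc.ok hK hK
  have bΛ := dN.big bN
  obtain ⟨d, hd, a, ha, a1, a2⟩ := der hK hK hc hg t
  have rg : ∀ Q, On n Λ Q → Rg Q d := fun Q o => reg hK hg hd
    (Gm.spn_of_on res' (fun _ _ _ _ hK _ => (big_mx_iff hK).1) hK ok s (e.symm ▸ o))
  obtain ⟨c, -, hc'⟩ := hβ.1.neg.exists_add
  obtain ⟨T, t1, t2, t3⟩ := cover (hc' c le_rfl)
  have := t1.to_subtype
  choose u hu using fun G : T => dlog hd.de (t2 G G.2).prn
  have dG : ∀ G : T, Dsc Λ G := fun G =>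
    (hβ.1.neg.add ((Dsc.refl s).smul c)).congr (t2 G G.2).prn
  obtain ⟨f, hf⟩ := Ku.ukv (n + 1) K hK (-N) T (fun G => G) u (by simpa using sN.nef)
    (by simpa using bN) (fun G => ⟨(dG G).car, (t2 G G.2).1⟩)
    (fun R => let ⟨G, x, y⟩ := t3 R; ⟨⟨G, x⟩, y⟩) fun i j R x y => Or.inr (by
      have := P297Z.Pl.ord_nonneg_of_mem _ (loc_hart hK s bΛ ((dG i).add (dG j))
        (add_nonneg (t2 i i.2).1 (t2 j j.2).1) (f := u i - u j) (fun Q o z => by
          have z := (add_eq_zero_iff_of_nonneg ((t2 i i.2).1 Q) ((t2 j j.2).1 Q)).1 z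
          have := sub_mem (hu i Q (rg Q o)) (hu j Q (rg Q o))
          rwa [Pi.sub_apply, Pi.sub_apply, z.1, z.2, sub_sub_sub_cancel_right] at this)
        (R := R) (by rw [Pi.add_apply, x, y, add_zero]))
      have : (0 : ℝ) ≤ R.ord (u i - u j) := by exact_mod_cast this
      linarith [kl R])
  have key : ∀ R, On n N R → f - algebraMap ℂ K (P.δ R - c * Λ R : ℝ) * (d R.t / R.t) ∈ R.ring :=
    fun R o => by
      obtain ⟨G, x, y⟩ := t3 R
      have o' := Pr.on_mono res' hK sN s dN o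
      have k1 := hu ⟨G, x⟩ R (rg R o')
      have k2 : f - u ⟨G, x⟩ ∈ R.ring := (hf ⟨G, x⟩ R y).elim (fun z => z ▸ zero_mem _) fun z =>
        mem_ord (by
          have : (-1 : ℝ) < R.ord (f - u ⟨G, x⟩) := by linarith [bd R o]
          have : -1 < R.ord (f - u ⟨G, x⟩) := by exact_mod_cast this
          omega)
      have := add_mem k2 k1
      rwa [sub_add_sub_cancel, show (G - (-β + c • Λ)) R = P.δ R - c * Λ R by
        simp [y, hβ.2 R o', sub_eq_add_neg, add_comm]] at this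
  refine ⟨f, ?_, fun R ne o => P297Z.Pl.ord_nonneg_of_mem _ ?_⟩
  · have k := key P on
    have r := rg P (Pr.on_mono res' hK sN s dN on)
    rw [← e, t.pb, Pl.δ_self, mul_zero, sub_zero, Complex.ofReal_one, map_one, one_mul] at k
    have k1 : ¬ Mx P (d P.t) := fun z => a2 (by
      rw [← mul_div_cancel₀ a P.t_ne, hd.de.mul]
      exact (mx_t (r _ a1)).add (z.mul a1))
    have k2 : ¬ Mx P (P.t * f) := fun z => k1 (by
      have := z.sub (mx_t k)
      rwa [← mul_sub, sub_sub_cancel, mul_div_cancel₀ _ P.t_ne] at this)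
    have k3 : P.t * f ∈ P.ring := by
      have := add_mem (mx_t k).mem (r _ (t_mem P))
      rwa [mul_sub, mul_div_cancel₀ _ P.t_ne, sub_add_cancel] at this
    rw [mx_iff, not_or] at k2
    have k4 := P297Z.Pl.ord_nonneg_of_mem _ k3
    rw [P297Z.Pl.ord_mul _ P.t_ne (right_ne_zero_of_mul k2.1), P.ord_t] at k2 k4
    omega
  · have k := key R o
    rcases ok R with l | ⟨Q, l⟩
    · rw [← e, l.pb, Pl.δ_ne ne] at k
      simpa using k
    · have lg := (rg R (Pr.on_mono res' hK sN s dN o)).lg hd.de l.e_pos.ne'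
        (by rw [hd.ki, zero_div]; exact zero_mem _)
      exact sub_add_cancel f _ ▸ add_mem k (mul_mem (R.con _) (lg R.t))

/-- **PEN** -/
theorem pen : Tg.PEN := by
  intro n K K' _ _ _ _ φ N P hK hK' sN bN kl bd ex t on
  obtain ⟨s, Γ, tm, -, -, ds, -, hl⟩ := Api.mod.ex n K hK ∅ {N} finite_empty (finite_singleton N)
    (singleton_subset_iff.2 sN.car)
  obtain ⟨Θ, h, -, e⟩ := Pe.ret_pb ex hK hK' finite_empty (toFinite {N, mx s})
    (insert_subset sN.car (singleton_subset_iff.2 (mx_mem_Car s)))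
  have v : vol n (res (h.pl P) N) = vol n (res P (pb φ N)) := by
    have := h.cf_pl In.hy hK' P fun _ : Fin n => pb φ N
    rwa [e N (.inl rfl)] at this
  have o : On n N (h.pl P) := lt_of_lt_of_eq on v.symm
  obtain ⟨β, -, hβ⟩ := hl _ (Pr.on_mono res' hK sN tm.smp (ds N rfl) o)
  obtain ⟨f, hf⟩ := core (ψ := Θ.comp φ) hK (fun c => by
      obtain ⟨c', k⟩ := Gm.Ext.cst' ex c
      rw [RingHom.comp_apply, ← k]
      exact h.cst c') (by
      refine eq_top_iff.2 fun x _ => ?_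
      obtain ⟨y, rfl⟩ := h.sur x
      refine Subfield.mem_comap.1 ((Subfield.closure_le (t := Subfield.comap Θ _)).2 ?_
        (ex.gen ▸ Subfield.mem_top y))
      rintro _ (⟨a, rfl⟩ | ⟨c, rfl⟩)
      exacts [Subfield.subset_closure (.inl ⟨a, rfl⟩), Subfield.subset_closure (.inr (h.cst c))])
    tm.smp (by rw [h.ok.pb_comp, e _ (.inr rfl)]) ((h.lies P).comp_trv t) hβ sN bN (ds N rfl) kl
    bd o
  exact ⟨_, f, o, v, hf⟩

end Vale.Agent.P287D.Pn
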